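import Mathlib

/-!
# R239 (helper69): D-optimal design (Kiefer--Wolfowitz / John), degenerate families allowed

`dopt`: for finitely many vectors `v t` of a finite dimensional space there are weights
`0 ≤ lam t ≤ 1`, `∑ lam ≤ dim`, with `⟪v t, g⟫ ^ 2 ≤ ∑ lam s * ⟪v s, g⟫ ^ 2` for all `t`, `g`.
-/

set_option autoImplicit false

namespace Crest.Agent.R239.W69

open Finset Matrix
open scoped RealInnerProductSpace

section coord

variable {ι : Type*} [Fintype ι] {r : ℕ}

/-- the information matrix -/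
def info (V : ι → Fin r → ℝ) (lam : ι → ℝ) : Matrix (Fin r) (Fin r) ℝ :=
  ∑ s, lam s • vecMulVec (V s) (V s)

lemma info_mulVec (V : ι → Fin r → ℝ) (lam : ι → ℝ) (x : Fin r → ℝ) :
    info V lam *ᵥ x = ∑ s, (lam s * (V s ⬝ᵥ x)) • V s := by
  unfold info
  rw [Matrix.sum_mulVec]
  refine Finset.sum_congr rfl fun s _ => ?_
  rw [Matrix.smul_mulVec, vecMulVec_mulVec]
  ext i
  simp
  ring

lemma dot_info_mulVec (V : ι → Fin r → ℝ) (lam : ι → ℝ) (g x : Fin r → ℝ) :
    g ⬝ᵥ (info V lam *ᵥ x) = ∑ s, lam s * (V s ⬝ᵥ g) * (V s ⬝ᵥ x) := by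
  rw [info_mulVec, dotProduct_sum]
  refine Finset.sum_congr rfl fun s _ => ?_
  rw [dotProduct_smul, dotProduct_comm g (V s), smul_eq_mul]
  ring

lemma info_isHermitian (V : ι → Fin r → ℝ) (lam : ι → ℝ) : (info V lam).IsHermitian := by
  unfold info
  refine Matrix.IsHermitian.ext fun i j => ?_
  simp only [Matrix.sum_apply, Matrix.smul_apply, vecMulVec_apply, star_trivial]
  exact Finset.sum_congr rfl fun s _ => by rw [mul_comm (V s j)]

lemma info_posDef (V : ι → Fin r → ℝ) (lam : ι → ℝ) (hl : ∀ s, 0 < lam s)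
    (hspan : ∀ g : Fin r → ℝ, (∀ t, V t ⬝ᵥ g = 0) → g = 0) : (info V lam).PosDef := by
  rw [Matrix.posDef_iff_dotProduct_mulVec]
  refine ⟨info_isHermitian V lam, fun x hx => ?_⟩
  have h1 : star x ⬝ᵥ (info V lam *ᵥ x) = ∑ s, lam s * (V s ⬝ᵥ x) ^ 2 := by
    have : star x = x := by ext i; simp
    rw [this, dot_info_mulVec]
    exact Finset.sum_congr rfl fun s _ => by ring
  rw [h1]
  by_contra hcon
  push Not at hcon
  have h0 : ∀ s ∈ (univ : Finset ι), 0 ≤ lam s * (V s ⬝ᵥ x) ^ 2 := fun s _ =>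
    mul_nonneg (hl s).le (sq_nonneg _)
  have h2 : ∑ s, lam s * (V s ⬝ᵥ x) ^ 2 = 0 := le_antisymm hcon (Finset.sum_nonneg h0)
  refine hx (hspan x fun t => ?_)
  have h3 := (Finset.sum_eq_zero_iff_of_nonneg h0).1 h2 t (Finset.mem_univ t)
  rcases mul_eq_zero.1 h3 with h4 | h4
  · exact absurd h4 (hl t).ne'
  · exact pow_eq_zero_iff (two_ne_zero) |>.1 h4

/-- the derivative test -/
lemma q_le_one {r : ℕ} (hr : 0 < r) {q : ℝ}
    (h : ∀ ε : ℝ, 0 < ε → ε < 1 → (1 - ε) ^ r * (1 + ε * r / (1 - ε) * q) ≤ 1) : q ≤ 1 := by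
  by_contra hq
  push Not at hq
  obtain ⟨m, rfl⟩ : ∃ m, r = m + 1 := ⟨r - 1, by omega⟩
  have hr0 : (0 : ℝ) < (m + 1 : ℕ) := by positivity
  set R : ℝ := ((m + 1 : ℕ) : ℝ) with hR
  have hRm : R = m + 1 := by rw [hR]; push_cast; ring
  -- for every `ε`
  have key : ∀ ε : ℝ, 0 < ε → ε < 1 → R * (q - 1) ≤ m * (R * q - 1) * ε := by
    intro ε h0 h1
    have h2 := h ε h0 h1
    have h3 : (1 - ε) ^ (m + 1) * (1 + ε * R / (1 - ε) * q) =
        (1 - ε) ^ m * (1 + ε * (R * q - 1)) := by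
      have : (1 - ε) ≠ 0 := by linarith
      rw [pow_succ]
      field_simp
      ring
    rw [h3] at h2
    have hb : 1 - m * ε ≤ (1 - ε) ^ m := by
      have := one_add_mul_le_pow (a := -ε) (by linarith) m
      calc 1 - m * ε = 1 + m * (-ε) := by ring
        _ ≤ (1 + -ε) ^ m := this
        _ = (1 - ε) ^ m := by ring
    have hpos : 0 ≤ 1 + ε * (R * q - 1) := by
      have : 1 ≤ R * q := by
        have : 1 ≤ R := by rw [hRm]; linarith [(Nat.cast_nonneg m : (0:ℝ) ≤ m)]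
        nlinarith
      have : 0 ≤ ε * (R * q - 1) := mul_nonneg h0.le (by linarith)
      linarith
    have h4 : (1 - m * ε) * (1 + ε * (R * q - 1)) ≤ 1 :=
      (mul_le_mul_of_nonneg_right hb hpos).trans h2
    have h5 : ε * (R * (q - 1)) ≤ ε * (m * (R * q - 1) * ε) := by
      have : R * q - 1 - m = R * (q - 1) := by rw [hRm]; ring
      nlinarith
    exact le_of_mul_le_mul_left h5 h0
  set B : ℝ := m * (R * q - 1) with hB
  have hA : 0 < R * (q - 1) := mul_pos hr0 (by linarith)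
  set A : ℝ := R * (q - 1) with hAdef
  have h1 := key (1 / 2) (by norm_num) (by norm_num)
  have hBpos : 0 < B := by linarith
  have h2 := key (min (1 / 2) (A / (2 * B))) (lt_min (by norm_num) (by positivity))
    (lt_of_le_of_lt (min_le_left _ _) (by norm_num))
  have h3 : B * min (1 / 2) (A / (2 * B)) ≤ B * (A / (2 * B)) :=
    mul_le_mul_of_nonneg_left (min_le_right _ _) hBpos.le
  have h4 : B * (A / (2 * B)) = A / 2 := by field_simp
  linarith

lemma wcs (lam a b : ι → ℝ) (hl : ∀ s, 0 ≤ lam s) :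
    (∑ s, lam s * a s * b s) ^ 2 ≤ (∑ s, lam s * a s ^ 2) * (∑ s, lam s * b s ^ 2) := by
  have h := Finset.sum_mul_sq_le_sq_mul_sq univ (fun s => Real.sqrt (lam s) * a s)
    (fun s => Real.sqrt (lam s) * b s)
  have e1 : ∀ s, (Real.sqrt (lam s) * a s) * (Real.sqrt (lam s) * b s) = lam s * a s * b s := by
    intro s
    calc (Real.sqrt (lam s) * a s) * (Real.sqrt (lam s) * b s)
        = (Real.sqrt (lam s)) ^ 2 * a s * b s := by ring
      _ = lam s * a s * b s := by rw [Real.sq_sqrt (hl s)]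
  have e2 : ∀ s, (Real.sqrt (lam s) * a s) ^ 2 = lam s * a s ^ 2 := by
    intro s; rw [mul_pow, Real.sq_sqrt (hl s)]
  have e3 : ∀ s, (Real.sqrt (lam s) * b s) ^ 2 = lam s * b s ^ 2 := by
    intro s; rw [mul_pow, Real.sq_sqrt (hl s)]
  simp only [e1, e2, e3] at h
  exact h

theorem dopt_core (hr : 0 < r) (V : ι → Fin r → ℝ)
    (hspan : ∀ g : Fin r → ℝ, (∀ t, V t ⬝ᵥ g = 0) → g = 0) :
    ∃ lam : ι → ℝ, (∀ t, 0 ≤ lam t ∧ lam t ≤ 1) ∧ ∑ t, lam t = r ∧
      ∀ t g, (V t ⬝ᵥ g) ^ 2 ≤ ∑ s, lam s * (V s ⬝ᵥ g) ^ 2 := by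
  classical
  -- the index set is nonempty
  have hne : Nonempty ι := by
    by_contra hem
    rw [not_nonempty_iff] at hem
    have h1 := hspan (fun _ => 1) fun t => (hem.false t).elim
    have h2 := congrFun h1 ⟨0, hr⟩
    simp at h2
  let K : Set (ι → ℝ) := {lam | (∀ t, 0 ≤ lam t) ∧ ∑ t, lam t = r}
  have hKc : IsCompact K := by
    have hsub : K ⊆ Set.pi Set.univ fun _ : ι => Set.Icc (0 : ℝ) r := by
      intro lam hlam t _
      refine ⟨hlam.1 t, ?_⟩
      rw [← hlam.2]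
      exact Finset.single_le_sum (f := lam) (fun s _ => hlam.1 s) (Finset.mem_univ t)
    have hcl : IsClosed K := by
      have : K = (⋂ t, {lam : ι → ℝ | 0 ≤ lam t}) ∩ {lam | ∑ t, lam t = r} := by
        ext lam; simp [K]
      rw [this]
      refine IsClosed.inter (isClosed_iInter fun t => ?_) ?_
      · exact isClosed_le continuous_const (continuous_apply t)
      · exact isClosed_eq (continuous_finset_sum _ fun t _ => continuous_apply t) continuous_const
    exact (isCompact_univ_pi fun _ => isCompact_Icc).of_isClosed_subset hcl hsub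
  set c : ℝ := (r : ℝ) / Fintype.card ι with hc
  have hcard : (0 : ℝ) < Fintype.card ι := by exact_mod_cast Fintype.card_pos
  have hr0 : (0 : ℝ) < r := by exact_mod_cast hr
  have hc0 : 0 < c := div_pos hr0 hcard
  have hcK : (fun _ : ι => c) ∈ K := by
    refine ⟨fun _ => hc0.le, ?_⟩
    simp [hc]
    field_simp
  have hcont : Continuous fun lam : ι → ℝ => (info V lam).det := by
    refine Continuous.matrix_det ?_
    unfold info
    exact continuous_finset_sum _ fun s _ => (continuous_apply s).smul continuous_const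
  obtain ⟨lam, hlK, hmax⟩ := hKc.exists_isMaxOn ⟨_, hcK⟩ hcont.continuousOn
  have hdet0 : 0 < (info V (fun _ => c)).det := (info_posDef V _ (fun _ => hc0) hspan).det_pos
  have hdet : 0 < (info V lam).det := lt_of_lt_of_le hdet0 (hmax hcK)
  set S := info V lam with hS
  have hunit : IsUnit S.det := hdet.ne'.isUnit
  -- `x t = S⁻¹ V t`
  let x : ι → Fin r → ℝ := fun t => S⁻¹ *ᵥ V t
  have hx : ∀ t, S *ᵥ x t = V t := by
    intro t
    show S *ᵥ (S⁻¹ *ᵥ V t) = V t
    rw [Matrix.mulVec_mulVec, Matrix.mul_nonsing_inv _ hunit, Matrix.one_mulVec]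
  let q : ι → ℝ := fun t => V t ⬝ᵥ x t
  have hq1 : ∀ t, q t ≤ 1 := by
    intro t
    refine q_le_one hr fun ε h0 h1 => ?_
    let lam' : ι → ℝ := fun s => (1 - ε) * lam s + if s = t then ε * r else 0
    have hl' : lam' ∈ K := by
      refine ⟨fun s => ?_, ?_⟩
      · have h2 : 0 ≤ (1 - ε) * lam s := mul_nonneg (by linarith) (hlK.1 s)
        by_cases hs : s = t
        · simp only [lam', if_pos hs]
          have : 0 ≤ ε * r := by positivity
          linarith
        · simp only [lam', if_neg hs, add_zero]; exact h2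
      · simp only [lam', Finset.sum_add_distrib, ← Finset.mul_sum, hlK.2, Finset.sum_ite_eq',
          Finset.mem_univ, if_true]
        ring
    have h3 : info V lam' = S * ((1 - ε) • (1 + vecMulVec ((ε * r / (1 - ε)) • x t) (V t))) := by
      have h4 : info V lam' = (1 - ε) • S + (ε * r) • vecMulVec (V t) (V t) := by
        simp only [hS, info, lam', add_smul, Finset.sum_add_distrib, Finset.smul_sum, mul_smul,
          ite_smul, zero_smul, Finset.sum_ite_eq', Finset.mem_univ, if_true]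
      have h5 : (1 - ε) ≠ 0 := by linarith
      rw [h4, Matrix.mul_smul, Matrix.mul_add, Matrix.mul_one, smul_add, Matrix.mul_vecMulVec,
        Matrix.mulVec_smul, hx]
      congr 1
      ext i j
      simp only [Matrix.smul_apply, vecMulVec_apply, Pi.smul_apply, smul_eq_mul]
      field_simp
    have h6 : (info V lam').det = S.det * ((1 - ε) ^ r * (1 + ε * r / (1 - ε) * q t)) := by
      rw [h3, Matrix.det_mul, Matrix.det_smul, Fintype.card_fin,
        Matrix.vecMulVec_eq Unit, Matrix.det_one_add_replicateCol_mul_replicateRow,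
        dotProduct_smul, smul_eq_mul]
    have h7 : (info V lam').det ≤ S.det := hmax hl'
    rw [h6] at h7
    have h8 : S.det * ((1 - ε) ^ r * (1 + ε * r / (1 - ε) * q t)) ≤ S.det * 1 := by
      rw [mul_one]; exact h7
    exact le_of_mul_le_mul_left h8 hdet
  -- the quadratic form
  have hform : ∀ (t : ι) (g : Fin r → ℝ), V t ⬝ᵥ g = ∑ s, lam s * (V s ⬝ᵥ x t) * (V s ⬝ᵥ g) := by
    intro t g
    have h1 : V t ⬝ᵥ g = g ⬝ᵥ (S *ᵥ x t) := by rw [hx, dotProduct_comm]
    rw [h1, hS, dot_info_mulVec]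
    exact Finset.sum_congr rfl fun s _ => by ring
  have hqf : ∀ t, q t = ∑ s, lam s * (V s ⬝ᵥ x t) ^ 2 := by
    intro t
    show V t ⬝ᵥ x t = _
    rw [hform t (x t)]
    exact Finset.sum_congr rfl fun s _ => by ring
  have hmain : ∀ t g, (V t ⬝ᵥ g) ^ 2 ≤ ∑ s, lam s * (V s ⬝ᵥ g) ^ 2 := by
    intro t g
    have h1 := wcs lam (fun s => V s ⬝ᵥ x t) (fun s => V s ⬝ᵥ g) hlK.1
    have h0 : 0 ≤ ∑ s, lam s * (V s ⬝ᵥ g) ^ 2 :=
      Finset.sum_nonneg fun s _ => mul_nonneg (hlK.1 s) (sq_nonneg _)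
    calc (V t ⬝ᵥ g) ^ 2 = (∑ s, lam s * (V s ⬝ᵥ x t) * (V s ⬝ᵥ g)) ^ 2 := by rw [← hform t g]
      _ ≤ (∑ s, lam s * (V s ⬝ᵥ x t) ^ 2) * ∑ s, lam s * (V s ⬝ᵥ g) ^ 2 := h1
      _ = q t * ∑ s, lam s * (V s ⬝ᵥ g) ^ 2 := by rw [← hqf]
      _ ≤ 1 * ∑ s, lam s * (V s ⬝ᵥ g) ^ 2 := mul_le_mul_of_nonneg_right (hq1 t) h0
      _ = _ := one_mul _
  -- trace identity
  have htr : ∑ t, lam t * q t = r := by
    have h1 : (S⁻¹ * S).trace = r := by
      rw [Matrix.nonsing_inv_mul _ hunit, Matrix.trace_one, Fintype.card_fin]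
    have h2 : (S⁻¹ * S).trace = ∑ t, lam t * q t := by
      have h3' : ∀ T : Matrix (Fin r) (Fin r) ℝ,
          T * info V lam = ∑ t, lam t • vecMulVec (T *ᵥ V t) (V t) := by
        intro T
        unfold info
        rw [Matrix.mul_sum]
        refine Finset.sum_congr rfl fun t _ => ?_
        rw [Matrix.mul_smul, Matrix.mul_vecMulVec]
      have h3 : S⁻¹ * S = ∑ t, lam t • vecMulVec (x t) (V t) := h3' S⁻¹
      rw [h3, Matrix.trace_sum]
      refine Finset.sum_congr rfl fun t _ => ?_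
      rw [Matrix.trace_smul, Matrix.trace_vecMulVec, dotProduct_comm, smul_eq_mul]
    rw [← h2, h1]
  have hzero : ∀ t, lam t * (1 - q t) = 0 := by
    have h0 : ∀ t ∈ (univ : Finset ι), 0 ≤ lam t * (1 - q t) := fun t _ =>
      mul_nonneg (hlK.1 t) (by linarith [hq1 t])
    have h1 : ∑ t, lam t * (1 - q t) = 0 := by
      have : ∑ t, lam t * (1 - q t) = ∑ t, lam t - ∑ t, lam t * q t := by
        rw [← Finset.sum_sub_distrib]
        exact Finset.sum_congr rfl fun t _ => by ring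
      rw [this, htr, hlK.2, sub_self]
    exact fun t => (Finset.sum_eq_zero_iff_of_nonneg h0).1 h1 t (Finset.mem_univ t)
  refine ⟨lam, fun t => ⟨hlK.1 t, ?_⟩, hlK.2, hmain⟩
  rcases (hlK.1 t).lt_or_eq with h | h
  · have hq : q t = 1 := by
      rcases mul_eq_zero.1 (hzero t) with h1 | h1
      · exact absurd h1 h.ne'
      · linarith
    have h2 : lam t * (V t ⬝ᵥ x t) ^ 2 ≤ ∑ s, lam s * (V s ⬝ᵥ x t) ^ 2 :=
      Finset.single_le_sum (f := fun s => lam s * (V s ⬝ᵥ x t) ^ 2)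
        (fun s _ => mul_nonneg (hlK.1 s) (sq_nonneg _)) (Finset.mem_univ t)
    rw [← hqf, hq] at h2
    have h3 : V t ⬝ᵥ x t = 1 := hq
    rw [h3] at h2
    linarith
  · rw [← h]; norm_num

end coord

variable {E : Type*} [NormedAddCommGroup E] [InnerProductSpace ℝ E] [FiniteDimensional ℝ E]

/-- **D-optimal design**, any finite family in a finite dimensional space. -/
theorem dopt {ι : Type*} [Fintype ι] (v : ι → E) :
    ∃ lam : ι → ℝ, (∀ t, 0 ≤ lam t ∧ lam t ≤ 1) ∧ ∑ t, lam t ≤ Module.finrank ℝ E ∧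
      ∀ t g, ⟪v t, g⟫ ^ 2 ≤ ∑ s, lam s * ⟪v s, g⟫ ^ 2 := by
  classical
  let W : Submodule ℝ E := Submodule.span ℝ (Set.range v)
  have hvW : ∀ t, v t ∈ W := fun t => Submodule.subset_span ⟨t, rfl⟩
  let b := stdOrthonormalBasis ℝ W
  set r := Module.finrank ℝ W with hrdef
  have hrle : r ≤ Module.finrank ℝ E := Submodule.finrank_le W
  rcases Nat.eq_zero_or_pos r with hr | hr
  · refine ⟨fun _ => 0, fun t => ⟨le_rfl, zero_le_one⟩, by simp, fun t g => ?_⟩
    have hW : W = ⊥ := Submodule.finrank_eq_zero.1 hr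
    have : v t = 0 := by
      have := hvW t
      rw [hW] at this
      exact (Submodule.mem_bot ℝ).1 this
    simp [this]
  let V : ι → Fin r → ℝ := fun t j => ⟪((b j : W) : E), v t⟫
  let gc : E → Fin r → ℝ := fun g j => ⟪((b j : W) : E), g⟫
  have hexp : ∀ t g, ⟪v t, g⟫ = V t ⬝ᵥ gc g := by
    intro t g
    have h1 : (⟨v t, hvW t⟩ : W) = ∑ j, ⟪b j, (⟨v t, hvW t⟩ : W)⟫ • b j :=
      (b.sum_repr' _).symm
    have h2 : v t = ∑ j, V t j • ((b j : W) : E) := by
      have h3 := congrArg (Subtype.val) h1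
      rw [Submodule.coe_sum] at h3
      simpa using h3
    conv_lhs => rw [h2]
    rw [sum_inner]
    refine Finset.sum_congr rfl fun j _ => ?_
    rw [real_inner_smul_left]
  have hspan : ∀ c : Fin r → ℝ, (∀ t, V t ⬝ᵥ c = 0) → c = 0 := by
    intro c hc
    let w : W := ∑ j, c j • b j
    have hgc : gc (w : E) = c := by
      ext j
      show ⟪((b j : W) : E), (w : E)⟫ = c j
      have : ⟪((b j : W) : E), (w : E)⟫ = ⟪b j, w⟫ := rfl
      rw [this]
      show ⟪b j, ∑ i, c i • b i⟫ = c j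
      rw [inner_sum]
      simp [inner_smul_right, b.inner_eq_ite]
    have h1 : ∀ t, ⟪v t, (w : E)⟫ = 0 := by
      intro t; rw [hexp, hgc, hc t]
    have h2 : ∀ y ∈ W, ⟪y, (w : E)⟫ = 0 := by
      intro y hy
      induction hy using Submodule.span_induction with
      | mem y hy => obtain ⟨t, rfl⟩ := hy; exact h1 t
      | zero => exact inner_zero_left _
      | add y z _ _ hy hz => rw [inner_add_left, hy, hz, add_zero]
      | smul a y _ hy => rw [real_inner_smul_left, hy, mul_zero]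
    have h3 : (w : E) = 0 := inner_self_eq_zero.1 (h2 w w.2)
    rw [← hgc, h3]
    ext j
    show ⟪((b j : W) : E), (0 : E)⟫ = 0
    exact inner_zero_right _
  obtain ⟨lam, h01, hsum, hmain⟩ := dopt_core hr V hspan
  refine ⟨lam, h01, ?_, fun t g => ?_⟩
  · rw [hsum]; exact_mod_cast hrle
  · rw [hexp]
    have : ∑ s, lam s * ⟪v s, g⟫ ^ 2 = ∑ s, lam s * (V s ⬝ᵥ gc g) ^ 2 :=
      Finset.sum_congr rfl fun s _ => by rw [hexp]
    rw [this]
    exact hmain t (gc g)

end Crest.Agent.R239.W69
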