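import Mathlib

/-!
# R239 (helper69): Lemma W of helper624 (#32311)

Letters `v t`, `‖v t‖ ≤ κ`, weights `0 ≤ lam t ≤ 1`.  Every `ζ` with
`⟪g, ζ⟫ ≤ t0 * sqrt (∑ lam t * ⟪v t, g⟫ ^ 2)` for all `g` is a sum `∑ u t • v t` with `|u t| ≤ β` and
all partial sums of norm at most `D`, as soon as `2 t0 ≤ β` and `4 κ² t0² ∑ lam ≤ D²`.
The number of letters does not matter.
-/

set_option autoImplicit false

namespace Crest.Agent.R239.W69

open Finset
open scoped RealInnerProductSpace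

variable {E : Type*} [NormedAddCommGroup E] [InnerProductSpace ℝ E] [FiniteDimensional ℝ E]

/-- a continuous linear functional on `Fin N → E` in coordinates -/
lemma exists_coords {N : ℕ} (f : (Fin N → E) →L[ℝ] ℝ) :
    ∃ l : Fin N → E, ∀ p : Fin N → E, f p = ∑ k, ⟪l k, p k⟫ := by
  classical
  refine ⟨fun k => (InnerProductSpace.toDual ℝ E).symm
    (f.comp (ContinuousLinearMap.single ℝ (fun _ : Fin N => E) k)), fun p => ?_⟩
  have h1 : p = ∑ k, Pi.single (M := fun _ : Fin N => E) k (p k) := by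
    funext j
    simp [Finset.sum_apply, Pi.single_apply]
  conv_lhs => rw [h1, map_sum]
  refine Finset.sum_congr rfl fun k _ => ?_
  rw [InnerProductSpace.toDual_symm_apply]
  simp

/-- weighted Minkowski inequality -/
lemma wmink {N : ℕ} (lam a b : Fin N → ℝ) (hl : ∀ t, 0 ≤ lam t) :
    Real.sqrt (∑ t, lam t * (a t) ^ 2) ≤
      Real.sqrt (∑ t, lam t * (b t) ^ 2) + Real.sqrt (∑ t, lam t * (a t - b t) ^ 2) := by
  have key : ∀ c : Fin N → ℝ, Real.sqrt (∑ t, lam t * (c t) ^ 2) =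
      ‖(WithLp.toLp 2 (fun t => Real.sqrt (lam t) * c t) : EuclideanSpace ℝ (Fin N))‖ := by
    intro c
    rw [EuclideanSpace.norm_eq]
    congr 1
    refine Finset.sum_congr rfl fun t _ => ?_
    simp only [Real.norm_eq_abs, sq_abs, mul_pow, Real.sq_sqrt (hl t)]
  rw [key, key, key]
  have h : (WithLp.toLp 2 (fun t => Real.sqrt (lam t) * a t) : EuclideanSpace ℝ (Fin N)) =
      (WithLp.toLp 2 (fun t => Real.sqrt (lam t) * b t) : EuclideanSpace ℝ (Fin N)) +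
      (WithLp.toLp 2 (fun t => Real.sqrt (lam t) * (a t - b t)) : EuclideanSpace ℝ (Fin N)) := by
    ext t
    simp
    ring
  rw [h]
  exact norm_add_le _ _

lemma sqrt_le_sum_abs {N : ℕ} (lam x : Fin N → ℝ) (hl1 : ∀ t, lam t ≤ 1) :
    Real.sqrt (∑ t, lam t * (x t) ^ 2) ≤ ∑ t, |x t| := by
  have h0 : 0 ≤ ∑ t, |x t| := Finset.sum_nonneg fun t _ => abs_nonneg _
  rw [Real.sqrt_le_left h0, sq, Finset.sum_mul]
  refine Finset.sum_le_sum fun t _ => ?_
  have h1 : |x t| ≤ ∑ s, |x s| :=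
    Finset.single_le_sum (f := fun s => |x s|) (fun s _ => abs_nonneg _) (Finset.mem_univ t)
  calc lam t * (x t) ^ 2 ≤ 1 * (x t) ^ 2 := mul_le_mul_of_nonneg_right (hl1 t) (sq_nonneg _)
    _ = |x t| * |x t| := by rw [one_mul, ← abs_mul_abs_self, sq]; simp [abs_mul_abs_self]
    _ ≤ |x t| * ∑ s, |x s| := mul_le_mul_of_nonneg_left h1 (abs_nonneg _)

/-- the dual inequality: no path `g_t` from anywhere to `G` is cheap -/
lemma dual_ineq {N : ℕ} (v : Fin N → E) (lam : Fin N → ℝ) (hl0 : ∀ t, 0 ≤ lam t)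
    (hl1 : ∀ t, lam t ≤ 1) {κ D β t0 TV : ℝ} (hv : ∀ t, ‖v t‖ ≤ κ) (hD0 : 0 ≤ D) (ht0 : 0 ≤ t0)
    (ht : 2 * t0 ≤ β) (hD : 4 * κ ^ 2 * t0 ^ 2 * (∑ t, lam t) ≤ D ^ 2)
    (g : Fin N → E) (G : E) (hTV : ∀ t, ‖G - g t‖ ≤ TV) (hTV0 : 0 ≤ TV) :
    t0 * Real.sqrt (∑ t, lam t * ⟪v t, G⟫ ^ 2) ≤ β * ∑ t, |⟪v t, g t⟫| + D * TV := by
  set Lm := ∑ t, lam t with hLm
  have hL0 : 0 ≤ Lm := Finset.sum_nonneg fun t _ => hl0 t
  set G2 := Real.sqrt (∑ t, lam t * ⟪v t, G⟫ ^ 2) with hG2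
  have hG20 : 0 ≤ G2 := Real.sqrt_nonneg _
  have hβ0 : 0 ≤ β := by linarith
  have hS0 : 0 ≤ ∑ t, |⟪v t, g t⟫| := Finset.sum_nonneg fun t _ => abs_nonneg _
  by_cases hcase : t0 * G2 ≤ D * TV
  · have := mul_nonneg hβ0 hS0
    linarith
  push Not at hcase
  have ht0' : 0 < t0 := by
    rcases ht0.lt_or_eq with h | h
    · exact h
    · exfalso
      rw [← h] at hcase
      have := mul_nonneg hD0 hTV0
      linarith
  -- the perturbation term
  have hpert : Real.sqrt (∑ t, lam t * (⟪v t, G⟫ - ⟪v t, g t⟫) ^ 2) ≤ κ * TV * Real.sqrt Lm := by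
    by_cases hN : N = 0
    · subst hN
      have h1 : Lm = 0 := by simp [hLm]
      simp [h1]
    have hκ0 : 0 ≤ κ := (norm_nonneg _).trans (hv ⟨0, Nat.pos_of_ne_zero hN⟩)
    have hb : 0 ≤ κ * TV := mul_nonneg hκ0 hTV0
    rw [Real.sqrt_le_left (mul_nonneg hb (Real.sqrt_nonneg _)), mul_pow, Real.sq_sqrt hL0, hLm,
      Finset.mul_sum]
    refine Finset.sum_le_sum fun t _ => ?_
    rw [mul_comm]
    refine mul_le_mul_of_nonneg_right ?_ (hl0 t)
    rw [← inner_sub_right]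
    have h1 : |⟪v t, G - g t⟫| ≤ κ * TV :=
      (abs_real_inner_le_norm _ _).trans
        (mul_le_mul (hv t) (hTV t) (norm_nonneg _) hκ0)
    have := abs_le.1 h1
    exact sq_le_sq' this.1 this.2
  have hDs : 2 * κ * t0 * Real.sqrt Lm ≤ D := by
    by_cases hN : N = 0
    · subst hN
      have h1 : Lm = 0 := by simp [hLm]
      simp [h1, hD0]
    have hκ0 : 0 ≤ κ := (norm_nonneg _).trans (hv ⟨0, Nat.pos_of_ne_zero hN⟩)
    refine le_of_sq_le_sq ?_ hD0
    calc (2 * κ * t0 * Real.sqrt Lm) ^ 2 = 4 * κ ^ 2 * t0 ^ 2 * (Real.sqrt Lm) ^ 2 := by ring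
      _ = 4 * κ ^ 2 * t0 ^ 2 * Lm := by rw [Real.sq_sqrt hL0]
      _ ≤ D ^ 2 := hD
  have hhalf : κ * TV * Real.sqrt Lm ≤ G2 / 2 := by
    have h1 : t0 * (2 * (κ * TV * Real.sqrt Lm)) < t0 * G2 := by
      calc t0 * (2 * (κ * TV * Real.sqrt Lm)) = (2 * κ * t0 * Real.sqrt Lm) * TV := by ring
        _ ≤ D * TV := mul_le_mul_of_nonneg_right hDs hTV0
        _ < t0 * G2 := hcase
    have := lt_of_mul_lt_mul_left h1 ht0'.le
    linarith
  have hm := wmink lam (fun t => ⟪v t, G⟫) (fun t => ⟪v t, g t⟫) hl0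
  have hs := sqrt_le_sum_abs lam (fun t => ⟪v t, g t⟫) hl1
  have h3 : G2 / 2 ≤ ∑ t, |⟪v t, g t⟫| := by
    have : G2 ≤ _ := hm
    linarith
  have h4 : t0 * G2 ≤ β * ∑ t, |⟪v t, g t⟫| := by
    calc t0 * G2 = 2 * t0 * (G2 / 2) := by ring
      _ ≤ β * (G2 / 2) := mul_le_mul_of_nonneg_right ht (by linarith)
      _ ≤ β * ∑ t, |⟪v t, g t⟫| := mul_le_mul_of_nonneg_left h3 hβ0
  have := mul_nonneg hD0 hTV0
  linarith

/-- core of Lemma W, partial sums indexed by `Iic k` -/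
lemma lemW_core {M : ℕ} (v : Fin (M + 1) → E) (lam : Fin (M + 1) → ℝ) (hl0 : ∀ t, 0 ≤ lam t)
    (hl1 : ∀ t, lam t ≤ 1) {κ D β t0 : ℝ} (hv : ∀ t, ‖v t‖ ≤ κ) (hD0 : 0 ≤ D) (ht0 : 0 ≤ t0)
    (ht : 2 * t0 ≤ β) (hD : 4 * κ ^ 2 * t0 ^ 2 * (∑ t, lam t) ≤ D ^ 2) (ζ : E)
    (hz : ∀ g, ⟪ζ, g⟫ ≤ t0 * Real.sqrt (∑ t, lam t * ⟪v t, g⟫ ^ 2)) :
    ∃ u : Fin (M + 1) → ℝ, (∀ t, |u t| ≤ β) ∧
      (∀ k, k ≠ Fin.last M → ‖∑ t ∈ Iic k, u t • v t‖ ≤ D) ∧ ∑ t, u t • v t = ζ := by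
  classical
  have hβ0 : 0 ≤ β := by linarith
  let L : (Fin (M + 1) → ℝ) →ₗ[ℝ] (Fin (M + 1) → E) :=
    LinearMap.pi fun k => ∑ t ∈ Iic k, (LinearMap.proj t).smulRight (v t)
  have hL : ∀ u k, L u k = ∑ t ∈ Iic k, u t • v t := by
    intro u k
    simp [L, LinearMap.sum_apply]
  let Q : Set (Fin (M + 1) → ℝ) := Set.pi Set.univ fun _ => Set.Icc (-β) β
  have hQc : IsCompact Q := isCompact_univ_pi fun _ => isCompact_Icc
  have hQcv : Convex ℝ Q := convex_pi fun _ _ => convex_Icc _ _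
  let C2 : Set (Fin (M + 1) → E) := {p | (∀ k, k ≠ Fin.last M → ‖p k‖ ≤ D) ∧ p (Fin.last M) = ζ}
  have hC2cl : IsClosed C2 := by
    have : C2 = (⋂ k, ⋂ (_ : k ≠ Fin.last M), {p : Fin (M + 1) → E | ‖p k‖ ≤ D}) ∩
        {p | p (Fin.last M) = ζ} := by
      ext p; simp [C2]
    rw [this]
    refine IsClosed.inter (isClosed_iInter fun k => isClosed_iInter fun _ => ?_) ?_
    · exact isClosed_le (continuous_norm.comp (continuous_apply k)) continuous_const
    · exact isClosed_eq (continuous_apply _) continuous_const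
  have hC2cv : Convex ℝ C2 := by
    intro p hp q hq a b ha hb hab
    refine ⟨fun k hk => ?_, ?_⟩
    · have h1 := hp.1 k hk
      have h2 := hq.1 k hk
      calc ‖(a • p + b • q) k‖ = ‖a • p k + b • q k‖ := rfl
        _ ≤ ‖a • p k‖ + ‖b • q k‖ := norm_add_le _ _
        _ = a * ‖p k‖ + b * ‖q k‖ := by
          rw [norm_smul, norm_smul, Real.norm_of_nonneg ha, Real.norm_of_nonneg hb]
        _ ≤ a * D + b * D := by
          exact add_le_add (mul_le_mul_of_nonneg_left h1 ha) (mul_le_mul_of_nonneg_left h2 hb)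
        _ = D := by rw [← add_mul, hab, one_mul]
    · show a • p (Fin.last M) + b • q (Fin.last M) = ζ
      rw [hp.2, hq.2, ← add_smul, hab, one_smul]
  by_cases hdis : Disjoint (L '' Q) C2
  swap
  · rw [Set.not_disjoint_iff] at hdis
    obtain ⟨p, ⟨u, hu, rfl⟩, hp⟩ := hdis
    refine ⟨u, fun t => abs_le.2 (hu t (Set.mem_univ t)), fun k hk => ?_, ?_⟩
    · rw [← hL]; exact hp.1 k hk
    · have h := hp.2
      rw [hL] at h
      rw [← h]
      congr 1
      ext t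
      simp [Fin.le_last]
  exfalso
  have hC1c : IsCompact (L '' Q) := hQc.image (LinearMap.continuous_of_finiteDimensional L)
  have hC1cv : Convex ℝ (L '' Q) := hQcv.linear_image L
  obtain ⟨f, a, b, ha, hab, hb⟩ :=
    geometric_hahn_banach_compact_closed hC1cv hC1c hC2cv hC2cl hdis
  obtain ⟨l, hl⟩ := exists_coords f
  let g : Fin (M + 1) → E := fun t => ∑ k ∈ Ici t, l k
  set G : E := l (Fin.last M) with hG
  set TV : ℝ := ∑ k ∈ univ.erase (Fin.last M), ‖l k‖ with hTV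
  have hTV0 : 0 ≤ TV := Finset.sum_nonneg fun k _ => norm_nonneg _
  -- upper end
  have h1 : β * ∑ t, |⟪v t, g t⟫| < a := by
    let u : Fin (M + 1) → ℝ := fun t => if 0 ≤ ⟪v t, g t⟫ then β else -β
    have huQ : u ∈ Q := by
      intro t _
      by_cases h : 0 ≤ ⟪v t, g t⟫
      · simp only [u, if_pos h]; exact ⟨by linarith, le_rfl⟩
      · simp only [u, if_neg h]; exact ⟨le_rfl, by linarith⟩
    have h2 := ha _ ⟨u, huQ, rfl⟩
    rw [hl] at h2
    have h3 : ∑ k, ⟪l k, L u k⟫ = ∑ t, u t * ⟪v t, g t⟫ := by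
      have e1 : ∀ k, ⟪l k, L u k⟫ = ∑ t, if t ≤ k then u t * ⟪v t, l k⟫ else 0 := by
        intro k
        rw [hL, inner_sum, ← Finset.sum_filter]
        have : univ.filter (fun t => t ≤ k) = Iic k := by ext t; simp
        rw [this]
        refine Finset.sum_congr rfl fun t _ => ?_
        rw [inner_smul_right, real_inner_comm]
      rw [Finset.sum_congr rfl fun k _ => e1 k, Finset.sum_comm]
      refine Finset.sum_congr rfl fun t _ => ?_
      rw [← Finset.sum_filter]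
      have : univ.filter (fun k => t ≤ k) = Ici t := by ext k; simp
      rw [this, ← Finset.mul_sum, ← inner_sum]
    rw [h3] at h2
    have h4 : ∑ t, u t * ⟪v t, g t⟫ = β * ∑ t, |⟪v t, g t⟫| := by
      rw [Finset.mul_sum]
      refine Finset.sum_congr rfl fun t _ => ?_
      by_cases h : 0 ≤ ⟪v t, g t⟫
      · simp only [u, if_pos h, abs_of_nonneg h]
      · push Not at h
        simp only [u, if_neg (not_le.2 h), abs_of_neg h]; ring
    linarith
  -- lower end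
  have h5 : b < ⟪ζ, G⟫ - D * TV := by
    let p : Fin (M + 1) → E := fun k => if k = Fin.last M then ζ else (-(D / ‖l k‖)) • l k
    have hpC : p ∈ C2 := by
      refine ⟨fun k hk => ?_, by simp [p]⟩
      simp only [p, if_neg hk]
      rw [norm_smul, norm_neg, Real.norm_eq_abs, abs_div, abs_norm, abs_of_nonneg hD0]
      by_cases h0 : ‖l k‖ = 0
      · rw [h0]; simp [hD0]
      · rw [div_mul_cancel₀ _ h0]
    have h6 := hb p hpC
    rw [hl] at h6
    have h7 : ∑ k, ⟪l k, p k⟫ = ⟪ζ, G⟫ - D * TV := by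
      rw [← Finset.add_sum_erase univ _ (Finset.mem_univ (Fin.last M))]
      have e1 : ⟪l (Fin.last M), p (Fin.last M)⟫ = ⟪ζ, G⟫ := by
        simp only [p, if_true]
        rw [real_inner_comm]
      have e2 : ∑ k ∈ univ.erase (Fin.last M), ⟪l k, p k⟫ = - (D * TV) := by
        rw [hTV, Finset.mul_sum, ← Finset.sum_neg_distrib]
        refine Finset.sum_congr rfl fun k hk => ?_
        have hk' : k ≠ Fin.last M := Finset.ne_of_mem_erase hk
        simp only [p, if_neg hk']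
        rw [inner_smul_right, real_inner_self_eq_norm_sq]
        by_cases h0 : ‖l k‖ = 0
        · rw [h0]; simp
        · field_simp
      rw [e1, e2]; ring
    linarith
  -- the path
  have hgl : ∀ t, ‖G - g t‖ ≤ TV := by
    intro t
    have e : g t = G + ∑ k ∈ (Ici t).erase (Fin.last M), l k := by
      simp only [g]
      rw [hG, Finset.add_sum_erase (Ici t) l (by simp [Fin.le_last])]
    rw [e]
    have : G - (G + ∑ k ∈ (Ici t).erase (Fin.last M), l k) =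
        - ∑ k ∈ (Ici t).erase (Fin.last M), l k := by abel
    rw [this, norm_neg]
    refine (norm_sum_le _ _).trans ?_
    exact Finset.sum_le_sum_of_subset_of_nonneg
      (Finset.erase_subset_erase _ (Finset.subset_univ _)) fun k _ _ => norm_nonneg _
  have hdual := dual_ineq v lam hl0 hl1 hv hD0 ht0 ht hD g G hgl hTV0
  have hzG := hz G
  linarith

/-- **Lemma W** (helper624), prefix form. -/
theorem lemW {N : ℕ} (v : Fin N → E) (lam : Fin N → ℝ) (hl0 : ∀ t, 0 ≤ lam t)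
    (hl1 : ∀ t, lam t ≤ 1) {κ D β t0 : ℝ} (hv : ∀ t, ‖v t‖ ≤ κ) (hD0 : 0 ≤ D) (ht0 : 0 ≤ t0)
    (ht : 2 * t0 ≤ β) (hD : 4 * κ ^ 2 * t0 ^ 2 * (∑ t, lam t) ≤ D ^ 2) (ζ : E)
    (hz : ∀ g, ⟪ζ, g⟫ ≤ t0 * Real.sqrt (∑ t, lam t * ⟪v t, g⟫ ^ 2)) :
    ∃ u : Fin N → ℝ, (∀ t, |u t| ≤ β) ∧
      (∀ k : ℕ, ‖∑ t ∈ univ.filter (fun t : Fin N => (t : ℕ) < k), u t • v t‖ ≤ D) ∧
      ∑ t, u t • v t = ζ := by
  have hzn : ‖ζ‖ ≤ D := by
    have h1 := hz ζ
    rw [real_inner_self_eq_norm_sq] at h1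
    have hS : Real.sqrt (∑ t, lam t * ⟪v t, ζ⟫ ^ 2) ≤ |κ| * ‖ζ‖ * Real.sqrt (∑ t, lam t) := by
      rw [Real.sqrt_le_left (by positivity), mul_pow, Real.sq_sqrt
        (Finset.sum_nonneg fun t _ => hl0 t), Finset.mul_sum]
      refine Finset.sum_le_sum fun t _ => ?_
      rw [mul_comm]
      refine mul_le_mul_of_nonneg_right ?_ (hl0 t)
      have h2 : |⟪v t, ζ⟫| ≤ |κ| * ‖ζ‖ :=
        (abs_real_inner_le_norm _ _).trans
          (mul_le_mul_of_nonneg_right ((hv t).trans (le_abs_self κ)) (norm_nonneg _))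
      have := abs_le.1 h2
      exact sq_le_sq' this.1 this.2
    have hDs : 2 * |κ| * t0 * Real.sqrt (∑ t, lam t) ≤ D := by
      refine le_of_sq_le_sq ?_ hD0
      calc (2 * |κ| * t0 * Real.sqrt (∑ t, lam t)) ^ 2
          = 4 * |κ| ^ 2 * t0 ^ 2 * (Real.sqrt (∑ t, lam t)) ^ 2 := by ring
        _ = 4 * κ ^ 2 * t0 ^ 2 * (∑ t, lam t) := by
          rw [Real.sq_sqrt (Finset.sum_nonneg fun t _ => hl0 t), sq_abs]
        _ ≤ D ^ 2 := hD
    have h3 : ‖ζ‖ ^ 2 ≤ ‖ζ‖ * (D / 2) := by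
      calc ‖ζ‖ ^ 2 ≤ t0 * (|κ| * ‖ζ‖ * Real.sqrt (∑ t, lam t)) :=
            h1.trans (mul_le_mul_of_nonneg_left hS ht0)
        _ = ‖ζ‖ * ((2 * |κ| * t0 * Real.sqrt (∑ t, lam t)) / 2) := by ring
        _ ≤ ‖ζ‖ * (D / 2) := mul_le_mul_of_nonneg_left (by linarith) (norm_nonneg _)
    rcases (norm_nonneg ζ).lt_or_eq with h | h
    · have : ‖ζ‖ ≤ D / 2 := by
        rw [sq] at h3
        exact le_of_mul_le_mul_left h3 h
      linarith
    · rw [← h]; exact hD0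
  rcases N with _ | M
  · refine ⟨fun _ => 0, fun t => t.elim0, fun k => by simp [hD0], ?_⟩
    have h1 := hz ζ
    simp only [Finset.univ_eq_empty, Finset.sum_empty, Real.sqrt_zero, mul_zero] at h1
    have : ζ = 0 := by
      rw [real_inner_self_eq_norm_sq] at h1
      have h2 : ‖ζ‖ = 0 := by
        have := sq_nonneg ‖ζ‖
        exact pow_eq_zero_iff (two_ne_zero) |>.1 (le_antisymm h1 this)
      exact norm_eq_zero.1 h2
    simp [this]
  obtain ⟨u, hu, hk, hs⟩ := lemW_core v lam hl0 hl1 hv hD0 ht0 ht hD ζ hz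
  refine ⟨u, hu, fun k => ?_, hs⟩
  rcases k with _ | k
  · simp [hD0]
  by_cases hkM : k < M
  · have e : univ.filter (fun t : Fin (M + 1) => (t : ℕ) < k + 1) =
        Iic (⟨k, by omega⟩ : Fin (M + 1)) := by
      ext t
      simp only [Finset.mem_filter, Finset.mem_univ, true_and, Finset.mem_Iic, Fin.le_def]
      omega
    rw [e]
    refine hk _ fun h => ?_
    have := congrArg Fin.val h
    simp at this
    omega
  · have e : univ.filter (fun t : Fin (M + 1) => (t : ℕ) < k + 1) = univ := by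
      ext t
      simp only [Finset.mem_filter, Finset.mem_univ, true_and, iff_true]
      have := t.2
      omega
    rw [e, hs]
    exact hzn

lemma sum_rev {N : ℕ} {X : Type*} [AddCommMonoid X] (F : Fin N → X) :
    ∑ t, F (Fin.rev t) = ∑ t, F t :=
  Equiv.sum_comp Fin.revPerm F

/-- **Lemma W**, suffix form (the offsets `R_k = ∑_{t ≥ k} u t • v t` of the robust star chain). -/
theorem lemW_suffix {N : ℕ} (v : Fin N → E) (lam : Fin N → ℝ) (hl0 : ∀ t, 0 ≤ lam t)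
    (hl1 : ∀ t, lam t ≤ 1) {κ D β t0 : ℝ} (hv : ∀ t, ‖v t‖ ≤ κ) (hD0 : 0 ≤ D) (ht0 : 0 ≤ t0)
    (ht : 2 * t0 ≤ β) (hD : 4 * κ ^ 2 * t0 ^ 2 * (∑ t, lam t) ≤ D ^ 2) (ζ : E)
    (hz : ∀ g, ⟪ζ, g⟫ ≤ t0 * Real.sqrt (∑ t, lam t * ⟪v t, g⟫ ^ 2)) :
    ∃ u : Fin N → ℝ, (∀ t, |u t| ≤ β) ∧
      (∀ k : ℕ, ‖∑ t ∈ univ.filter (fun t : Fin N => k ≤ (t : ℕ)), u t • v t‖ ≤ D) ∧
      ∑ t, u t • v t = ζ := by
  obtain ⟨u, hu, hk, hs⟩ := lemW (fun t => v (Fin.rev t)) (fun t => lam (Fin.rev t))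
    (fun t => hl0 _) (fun t => hl1 _) (fun t => hv _) hD0 ht0 ht
    (by rw [sum_rev (fun t => lam t)]; exact hD) ζ
    (fun g => by rw [sum_rev (fun t => lam t * ⟪v t, g⟫ ^ 2)]; exact hz g)
  refine ⟨fun t => u (Fin.rev t), fun t => hu _, fun k => ?_, ?_⟩
  · have h := hk (N - k)
    have e : ∑ t ∈ univ.filter (fun t : Fin N => k ≤ (t : ℕ)), u (Fin.rev t) • v t =
        ∑ t ∈ univ.filter (fun t : Fin N => (t : ℕ) < N - k), u t • v (Fin.rev t) := by
      rw [Finset.sum_filter, Finset.sum_filter,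
        ← sum_rev (fun t => if k ≤ (t : ℕ) then u (Fin.rev t) • v t else 0)]
      refine Finset.sum_congr rfl fun t _ => ?_
      have ht2 := t.2
      have hiff : k ≤ ((Fin.rev t : Fin N) : ℕ) ↔ (t : ℕ) < N - k := by
        rw [Fin.val_rev]
        omega
      by_cases h1 : (t : ℕ) < N - k
      · rw [if_pos h1, if_pos (hiff.2 h1), Fin.rev_rev]
      · rw [if_neg h1, if_neg (fun h2 => h1 (hiff.1 h2))]
    rw [e]
    exact h
  · rw [← hs, ← sum_rev (fun t => u (Fin.rev t) • v t)]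
    refine Finset.sum_congr rfl fun t _ => ?_
    rw [Fin.rev_rev]

end Crest.Agent.R239.W69
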