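import Crest.Agent.R239.Rank1Low622

/-!
# R239 (helper84): the robust star does not decrease Gaussian measure at levels `≥ τ`

`rs β K v = {x | ∃ a, |a| ≤ 2 - β, x - a v - v ∈ K, x - a v + v ∈ K}` (69's literal).
-/

set_option autoImplicit false
set_option linter.unusedSectionVars false
open MeasureTheory ProbabilityTheory Set Filter Topology Metric
open scoped RealInnerProductSpace ENNReal NNReal InnerProduct Pointwise

namespace Crest.Agent.R239.Rob84

open Crest.Agent.Lib.Ehrhard Rank1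

section alg

variable {E : Type*} [NormedAddCommGroup E] [NormedSpace ℝ E]

/-- robust star -/
def rs (β : ℝ) (K : Set E) (v : E) : Set E :=
  {x | ∃ a : ℝ, |a| ≤ 2 - β ∧ x - a • v - v ∈ K ∧ x - a • v + v ∈ K}

/-- robustness: from `x ∈ rs β K v`, for every offset `|u| ≤ β` one of the two moves is in `K` -/
theorem rs_move {β : ℝ} {K : Set E} (cK : Convex ℝ K) {v x : E} (hx : x ∈ rs β K v) {u : ℝ}
    (hu : |u| ≤ β) (hβ : β ≤ 1) : x + (u + 1) • v ∈ K ∨ x + (u - 1) • v ∈ K := by
  obtain ⟨a, ha, h1, h2⟩ := hx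
  rw [abs_le] at ha hu
  have key : ∀ c : ℝ, -a - 1 ≤ c → c ≤ -a + 1 → x + c • v ∈ K := by
    intro c hc1 hc2
    have hs : 0 ≤ (c + a + 1) / 2 := by linarith
    have ht : 0 ≤ 1 - (c + a + 1) / 2 := by linarith
    have := cK h1 h2 ht hs (by ring)
    have he : (1 - (c + a + 1) / 2) • (x - a • v - v) + ((c + a + 1) / 2) • (x - a • v + v) =
        x + c • v := by module
    rwa [he] at this
  by_cases h : u + 1 ≤ -a + 1
  · exact Or.inl (key _ (by linarith) h)
  · push Not at h
    by_cases h' : -a - 1 ≤ u - 1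
    · exact Or.inr (key _ h' (by linarith))
    · exfalso; linarith

theorem rs_convex {β : ℝ} {K : Set E} (cK : Convex ℝ K) (v : E) : Convex ℝ (rs β K v) := by
  rintro x ⟨a, ha, h1, h2⟩ y ⟨b, hb, h3, h4⟩ s t hs ht hst
  refine ⟨s * a + t * b, ?_, ?_, ?_⟩
  · calc |s * a + t * b| ≤ |s * a| + |t * b| := abs_add_le _ _
      _ = s * |a| + t * |b| := by rw [abs_mul, abs_mul, abs_of_nonneg hs, abs_of_nonneg ht]
      _ ≤ s * (2 - β) + t * (2 - β) := by gcongr
      _ = 2 - β := by rw [← add_mul, hst, one_mul]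
  · have := cK h1 h3 hs ht hst
    have he : s • (x - a • v - v) + t • (y - b • v - v) =
        s • x + t • y - (s * a + t * b) • v - v := by
      have hv : v = (s + t) • v := by rw [hst, one_smul]
      conv_rhs => rw [hv]
      have h1 : (s * a + t * b) • (s + t) • v = (s * a + t * b) • v := by rw [hst, one_smul]
      rw [h1]; module
    rwa [he] at this
  · have := cK h2 h4 hs ht hst
    have he : s • (x - a • v + v) + t • (y - b • v + v) =
        s • x + t • y - (s * a + t * b) • v + v := by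
      have hv : v = (s + t) • v := by rw [hst, one_smul]
      conv_rhs => rw [hv]
      have h1 : (s * a + t * b) • (s + t) • v = (s * a + t * b) • v := by rw [hst, one_smul]
      rw [h1]; module
    rwa [he] at this

theorem rs_mono {β : ℝ} {K L : Set E} (h : K ⊆ L) (v : E) : rs β K v ⊆ rs β L v := by
  rintro x ⟨a, ha, h1, h2⟩
  exact ⟨a, ha, h h1, h h2⟩

theorem rs_neg_symm {β : ℝ} {K : Set E} (hK : ∀ x ∈ K, -x ∈ K) (v : E) :
    ∀ x ∈ rs β K v, -x ∈ rs β K v := by
  rintro x ⟨a, ha, h1, h2⟩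
  refine ⟨-a, by rwa [abs_neg], ?_, ?_⟩
  · have := hK _ h2
    have he : -(x - a • v + v) = -x - (-a) • v - v := by module
    rwa [he] at this
  · have := hK _ h1
    have he : -(x - a • v - v) = -x - (-a) • v + v := by module
    rwa [he] at this

theorem rs_closed [FiniteDimensional ℝ E] {β : ℝ} {K : Set E} (hK : IsClosed K) (v : E) :
    IsClosed (rs β K v) := by
  have h2 : rs β K v = Prod.snd '' ({q : ℝ × E | q.1 ∈ Icc (-(2 - β)) (2 - β) ∧
      q.2 - q.1 • v - v ∈ K ∧ q.2 - q.1 • v + v ∈ K}) := by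
    ext p
    constructor
    · rintro ⟨u, h0, h1, h2⟩
      exact ⟨(u, p), ⟨abs_le.1 h0, h1, h2⟩, rfl⟩
    · rintro ⟨⟨u, p'⟩, ⟨h0, h1, h2⟩, h3⟩
      simp only at h3
      subst h3
      exact ⟨u, abs_le.2 h0, h1, h2⟩
  rw [h2]
  have hcl : IsClosed {q : ℝ × E | q.2 - q.1 • v - v ∈ K ∧ q.2 - q.1 • v + v ∈ K} :=
    (hK.preimage (by fun_prop : Continuous fun q : ℝ × E => q.2 - q.1 • v - v)).inter
      (hK.preimage (by fun_prop : Continuous fun q : ℝ × E => q.2 - q.1 • v + v))
  rw [← isSeqClosed_iff_isClosed]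
  intro x y hx hxy
  choose q hq hqx using hx
  obtain ⟨a, ha, φ, hφ, hlim⟩ := isCompact_Icc.tendsto_subseq (fun n => (hq n).1)
  refine ⟨(a, y), ⟨ha, ?_⟩, rfl⟩
  have h3 : Tendsto (fun n => q (φ n)) atTop (𝓝 (a, y)) := by
    rw [Prod.tendsto_iff]
    refine ⟨hlim, ?_⟩
    have : (fun n => (q (φ n)).2) = fun n => x (φ n) := by
      funext n; exact hqx (φ n)
    rw [this]
    exact hxy.comp hφ.tendsto_atTop
  exact hcl.mem_of_tendsto h3 (Eventually.of_forall fun n => (hq (φ n)).2)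

/-- linear images: the robust star along `T v'` pulls back -/
theorem rs_preimage {F : Type*} [NormedAddCommGroup F] [NormedSpace ℝ F] {β : ℝ} {K : Set E}
    (T : F →ₗ[ℝ] E) (z : E) (v' : F) :
    rs β ((fun y => z + T y) ⁻¹' K) v' ⊆ (fun y => z + T y) ⁻¹' (rs β K (T v')) := by
  rintro y ⟨a, ha, h1, h2⟩
  refine ⟨a, ha, ?_, ?_⟩
  · have he : z + T (y - a • v' - v') = z + T y - a • T v' - T v' := by
      rw [map_sub, map_sub, map_smul]; abel
    have h1' : z + T (y - a • v' - v') ∈ K := h1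
    rwa [he] at h1'
  · have he : z + T (y - a • v' + v') = z + T y - a • T v' + T v' := by
      rw [map_add, map_sub, map_smul]; abel
    have h2' : z + T (y - a • v' + v') ∈ K := h2
    rwa [he] at h2'

/-- points on or near a long chord are in the robust star -/
lemma mem_rs_of_chord {β : ℝ} (hβ1 : β ≤ 1) {K : Set E} (cK : Convex ℝ K) {e : E} {h : ℝ}
    (hh : 0 < h) {x : E} {t u : ℝ} (h1 : x + t • e ∈ K) (h2 : x + (t + 2 * h) • e ∈ K)
    (hu : |u| ≤ (1 - β) * h) (h3 : x + u • e ∈ K) : x ∈ rs β K (h • e) := by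
  rw [abs_le] at hu
  have lm : ∀ {a b c : ℝ}, x + a • e ∈ K → x + b • e ∈ K → a ≤ c → c ≤ b → x + c • e ∈ K := by
    intro a b c ha hb hac hcb
    rcases eq_or_lt_of_le (hac.trans hcb) with hab | hab
    · have : c = a := le_antisymm (by linarith) hac
      rwa [this]
    · have hs : 0 ≤ (c - a) / (b - a) := div_nonneg (by linarith) (by linarith)
      have ht : 0 ≤ 1 - (c - a) / (b - a) := by
        rw [sub_nonneg, div_le_one (by linarith)]; linarith
      have := cK ha hb ht hs (by ring)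
      have he : (1 - (c - a) / (b - a)) • (x + a • e) + ((c - a) / (b - a)) • (x + b • e) =
          x + ((1 - (c - a) / (b - a)) * a + (c - a) / (b - a) * b) • e := by module
      rw [he] at this
      have hc : (1 - (c - a) / (b - a)) * a + (c - a) / (b - a) * b = c := by
        have : b - a ≠ 0 := by linarith
        field_simp; ring
      rwa [hc] at this
  have key : ∀ c : ℝ, |c| ≤ (2 - β) * h → x - c • e - h • e ∈ K → x - c • e + h • e ∈ K →
      x ∈ rs β K (h • e) := by
    intro c hc g1 g2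
    refine ⟨c / h, ?_, ?_, ?_⟩
    · rw [abs_div, abs_of_pos hh, div_le_iff₀ hh]; exact hc
    · rw [smul_smul, show c / h * h = c by field_simp]; exact g1
    · rw [smul_smul, show c / h * h = c by field_simp]; exact g2
  have conv : ∀ c : ℝ, |c| ≤ (2 - β) * h → x + (-c - h) • e ∈ K → x + (-c + h) • e ∈ K →
      x ∈ rs β K (h • e) := by
    intro c hc g1 g2
    refine key c hc ?_ ?_
    · have : x - c • e - h • e = x + (-c - h) • e := by module
      rwa [this]
    · have : x - c • e + h • e = x + (-c + h) • e := by module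
      rwa [this]
  have hβh : 0 ≤ (1 - β) * h := mul_nonneg (by linarith) hh.le
  -- centre of the interval used is `-c`
  rcases le_total t ((1 - β) * h) with h4 | h4
  · rcases le_total (-((1 - β) * h)) (t + 2 * h) with h5 | h5
    · -- the chord `[t, t + 2h]` itself, centre `t + h`
      refine conv (-(t + h)) ?_ ?_ ?_
      · rw [abs_neg, abs_le]; constructor <;> nlinarith
      · have : -(-(t + h)) - h = t := by ring
        rwa [this]
      · have : -(-(t + h)) + h = t + 2 * h := by ring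
        rwa [this]
    · -- the chord is far on the left : use `[-(1-β)h - 2h, -(1-β)h]`
      refine conv ((1 - β) * h + h) ?_ ?_ ?_
      · rw [abs_of_nonneg (by linarith)]; nlinarith
      · exact lm h1 h3 (by linarith) (by linarith)
      · have : -((1 - β) * h + h) + h = -((1 - β) * h) := by ring
        rw [this]
        exact lm h2 h3 h5 hu.1
  · -- the chord is on the right : use `[(1-β)h, (1-β)h + 2h]`
    refine conv (-((1 - β) * h + h)) ?_ ?_ ?_
    · rw [abs_neg, abs_of_nonneg (by linarith)]; nlinarith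
    · have : -(-((1 - β) * h + h)) - h = (1 - β) * h := by ring
      rw [this]
      exact lm h3 h1 hu.2 h4
    · exact lm h3 h2 (by linarith) (by linarith)

end alg

section meas

variable {E : Type*} [NormedAddCommGroup E] [InnerProductSpace ℝ E] [FiniteDimensional ℝ E]
  [MeasurableSpace E] [BorelSpace E]

/-- `γ(rs β K (h e)) ≥ γ K + γ(ext)/2` at level `τ` -/
lemma measure_rs_ge_ext {K : Set E} (hK : IsClosed K) (cK : Convex ℝ K) {τ : ℝ} (hτ0 : 0 < τ)
    (hτ1 : τ ≤ 1 / 2) (hh : τ ≤ (stdGaussian E).real K) {β : ℝ} (hβ0 : 0 ≤ β) (hβ1 : β ≤ 1 / 2)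
    {e : E} (he : ‖e‖ = 1) {h : ℝ} (h0 : 0 < h) (h1 : h ≤ τ ^ 2 / 64) :
    (stdGaussian E).real K + 1 / 2 * (stdGaussian E).real (extSet K e (2 * h) ((1 - β) * h)) ≤
      (stdGaussian E).real (rs β K (h • e)) := by
  have hτ2 : 0 < τ ^ 2 := by positivity
  have hτ4 : τ ^ 2 ≤ 1 / 4 := by nlinarith
  have hk0 : 0 < (1 - β) * h := mul_pos (by linarith) h0
  have hkh : (1 - β) * h ≤ h := by nlinarith
  have hkl : h ≤ 2 * ((1 - β) * h) := by nlinarith
  have hr := rank_one_low hK cK hτ0 hτ1 hh he (l := 2 * h) (k := (1 - β) * h) (by linarith)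
    (by linarith) hk0 (by linarith)
  have hmS := measurableSet_shortSet hK e (2 * h)
  have hmE := measurableSet_extSet hK e (2 * h) ((1 - β) * h)
  have hS : (stdGaussian E).real (K \ shortSet K e (2 * h)) =
      (stdGaussian E).real K - (stdGaussian E).real (shortSet K e (2 * h)) :=
    measureReal_sdiff (fun y hy => hy.1) hmS
  have hdisj : Disjoint (K \ shortSet K e (2 * h)) (extSet K e (2 * h) ((1 - β) * h)) := by
    rw [Set.disjoint_left]
    rintro y ⟨h2, -⟩ h3
    exact h3.1 h2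
  have hU : (stdGaussian E).real ((K \ shortSet K e (2 * h)) ∪ extSet K e (2 * h) ((1 - β) * h)) =
      (stdGaussian E).real (K \ shortSet K e (2 * h)) +
        (stdGaussian E).real (extSet K e (2 * h) ((1 - β) * h)) := measureReal_union hdisj hmE
  have hsub : (K \ shortSet K e (2 * h)) ∪ extSet K e (2 * h) ((1 - β) * h) ⊆
      rs β K (h • e) := by
    rintro y (⟨h2, h3⟩ | ⟨h2, ⟨t, g1, g2⟩, ⟨u, hu, g3⟩⟩)
    · have h5 : chordGe K e (2 * h) y := by
        by_contra hcon
        exact h3 ⟨h2, hcon⟩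
      obtain ⟨t, g1, g2⟩ := h5
      exact mem_rs_of_chord (by linarith) cK h0 g1 g2 (u := 0) (by simpa using hk0.le)
        (by simpa using h2)
    · exact mem_rs_of_chord (by linarith) cK h0 g1 g2 hu g3
  have hle := measureReal_mono (μ := stdGaussian E) hsub
  have hen : 0 ≤ (stdGaussian E).real (extSet K e (2 * h) ((1 - β) * h)) := measureReal_nonneg
  have h6 : 4 / τ ^ 2 * ((2 * h) ^ 2 / ((1 - β) * h)) *
      (stdGaussian E).real (extSet K e (2 * h) ((1 - β) * h)) ≤
      1 / 2 * (stdGaussian E).real (extSet K e (2 * h) ((1 - β) * h)) := by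
    apply mul_le_mul_of_nonneg_right _ hen
    have h7 : (2 * h) ^ 2 / ((1 - β) * h) ≤ 8 * h := by
      rw [div_le_iff₀ hk0]; nlinarith
    calc 4 / τ ^ 2 * ((2 * h) ^ 2 / ((1 - β) * h)) ≤ 4 / τ ^ 2 * (8 * h) := by gcongr
      _ = 32 * h / τ ^ 2 := by ring
      _ ≤ 1 / 2 := by rw [div_le_iff₀ hτ2]; linarith
  linarith

/-- **(d)** the robust star does not decrease the standard Gaussian measure at levels `≥ τ` -/
theorem measure_rs_ge {K : Set E} (hK : IsClosed K) (cK : Convex ℝ K) {τ : ℝ} (hτ0 : 0 < τ)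
    (hτ1 : τ ≤ 1 / 2) (hh : τ ≤ (stdGaussian E).real K) {β : ℝ} (hβ0 : 0 ≤ β) (hβ1 : β ≤ 1 / 2)
    {v : E} (hv : ‖v‖ ≤ τ ^ 2 / 64) :
    (stdGaussian E).real K ≤ (stdGaussian E).real (rs β K v) := by
  rcases eq_or_ne v 0 with rfl | hv0
  · refine measureReal_mono ?_
    intro x hx
    exact ⟨0, by rw [abs_zero]; linarith, by simpa using hx, by simpa using hx⟩
  have hpos : 0 < ‖v‖ := norm_pos_iff.2 hv0
  obtain ⟨e, he, hse⟩ : ∃ e : E, ‖e‖ = 1 ∧ v = ‖v‖ • e := by
    refine ⟨‖v‖⁻¹ • v, by rw [norm_smul, norm_inv, norm_norm, inv_mul_cancel₀ hpos.ne'], ?_⟩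
    rw [smul_smul, mul_inv_cancel₀ hpos.ne', one_smul]
  have h2 := measure_rs_ge_ext hK cK hτ0 hτ1 hh hβ0 hβ1 he hpos hv
  rw [← hse] at h2
  have h4 : 0 ≤ (stdGaussian E).real (extSet K e (2 * ‖v‖) ((1 - β) * ‖v‖)) := measureReal_nonneg
  linarith

/-- (d) with walls -/
theorem measure_rs_wall {K W : Set E} (hK : IsClosed K) (cK : Convex ℝ K) {τ : ℝ} (hτ0 : 0 < τ)
    (hτ1 : τ ≤ 1 / 2) (hh : τ ≤ (stdGaussian E).real K) {β : ℝ} (hβ0 : 0 ≤ β) (hβ1 : β ≤ 1 / 2)
    {v : E} (hv : ‖v‖ ≤ τ ^ 2 / 64) :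
    (stdGaussian E).real K - (stdGaussian E).real Wᶜ ≤ (stdGaussian E).real (rs β K v ∩ W) := by
  have h1 := measure_rs_ge hK cK hτ0 hτ1 hh hβ0 hβ1 hv
  have h2 : rs β K v ⊆ (rs β K v ∩ W) ∪ Wᶜ := by
    intro x hx
    by_cases h : x ∈ W
    · exact Or.inl ⟨hx, h⟩
    · exact Or.inr h
  have h3 := (measureReal_mono (μ := stdGaussian E) h2).trans (measureReal_union_le _ _)
  linarith

/-- (d) for a general Gaussian: law of `z + T g`, letter `T v'` -/
theorem measure_rs_aff {F : Type*} [NormedAddCommGroup F] [InnerProductSpace ℝ F]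
    [FiniteDimensional ℝ F] [MeasurableSpace F] [BorelSpace F]
    {K : Set F} (hK : IsClosed K) (cK : Convex ℝ K) (T : E →L[ℝ] F) (z : F) {τ : ℝ} (hτ0 : 0 < τ)
    (hτ1 : τ ≤ 1 / 2) (hh : τ ≤ (stdGaussian E).real ((fun y => z + T y) ⁻¹' K)) {β : ℝ}
    (hβ0 : 0 ≤ β) (hβ1 : β ≤ 1 / 2) {v' : E} (hv : ‖v'‖ ≤ τ ^ 2 / 64) :
    (stdGaussian E).real ((fun y => z + T y) ⁻¹' K) ≤
      (stdGaussian E).real ((fun y => z + T y) ⁻¹' (rs β K (T v'))) := by
  have hc : IsClosed ((fun y => z + T y) ⁻¹' K) := hK.preimage (by fun_prop)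
  have hcc : Convex ℝ ((fun y => z + T y) ⁻¹' K) := by
    intro a ha b hb s t hs ht hst
    have := cK (show z + T a ∈ K from ha) (show z + T b ∈ K from hb) hs ht hst
    have he : s • (z + T a) + t • (z + T b) = z + T (s • a + t • b) := by
      rw [map_add, map_smul, map_smul]
      have hz : z = (s + t) • z := by rw [hst, one_smul]
      conv_rhs => rw [hz]
      module
    show z + T (s • a + t • b) ∈ K
    rwa [← he]
  exact (measure_rs_ge hc hcc hτ0 hτ1 hh hβ0 hβ1 hv).trans
    (measureReal_mono (rs_preimage (T : E →ₗ[ℝ] F) z v'))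

end meas

end Crest.Agent.R239.Rob84
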